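import Vale.Agent.P347.Zero.Exponent
import Vale.Agent.P347.Zero.All

/-!
# P347: the query exponent is zero
-/

open Filter

namespace Vale.Agent.Results.P347.ZeroExponent

open Vale.Agent.P347

/-- For every `ε > 0` and all large `d`, some first-order algorithm with at most `d ^ ε` queries
samples every potential of the class within `1/10` in total variation; hence the exponent is `0`. -/
theorem result :
    (∀ ε : ℝ, 0 < ε → ∀ᶠ d : ℕ in atTop, ∃ q : ℕ, (q : ℝ) ≤ (d : ℝ) ^ ε ∧ Sampleable d q) ∧
    gammaStar = 0 :=
  ⟨fun _ hε => Zero.sampleable_of_smallBlur Zero.smallBlur_holds hε,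
    Zero.gammaStar_eq_zero Zero.smallBlur_holds⟩

end Vale.Agent.Results.P347.ZeroExponent
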